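import Vale.Agent.P202.Sys

/-! The Cech system as explicit data. -/

namespace Vale.Agent.P202

universe u

variable {K : Type u} [Field K] {n : ℕ} {R : SegreRing K n} {a : ℕ}

open TensorProduct

/-- the system on a point. -/
noncomputable def CechSys.baseS (K : Type u) [Field K] (a : ℕ) :
    CechSys (SegreRing.base K) a := by
  refine {
    M := K
    act := (Algebra.lsmul K K K : K →ₐ[K] Module.End K K)
    d := 0
    d_act := fun b x => by simp
    d_d := fun x => rfl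
    C := fun _ l => if l = 0 then ⊤ else ⊥
    Kc := fun c _ l => if l = 0 ∧ c ≤ 0 then ⊤ else ⊥
    U := fun t => if 0 ≤ t then ⊤ else ⊥
    act_C := fun s b _ t l x hx => Submodule.smul_mem _ (show K from b) hx
    act_Kc := fun s b _ c t l x hx => Submodule.smul_mem _ (show K from b) hx
    act_U := fun s b _ t x hx => ?_
    d_C := fun _ _ _ _ => zero_mem _
    d_Kc := fun _ _ _ _ _ => zero_mem _
    Kc_le := fun c t l => ?_
    Kc_anti := fun c c' t l h => ?_
    Kc_eq := fun c t l h => by simp [h]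
    C_neg := fun t l h => if_neg h.ne
    U_le := fun t => by simp
    d_U := fun _ _ _ => rfl
    U_neg := fun t h => if_neg h.not_ge
    θ := fun _ => LinearMap.id
    θ_act := fun _ _ _ => rfl
    θ_C := fun _ _ _ _ h => h
    θ_Kc := fun _ _ _ _ _ h => h
    θ_idem := fun r x => one_smul K _
    θ_sum := fun x => (Finset.sum_unique_nonempty _ _ ⟨(), Finset.mem_univ _⟩).trans (one_smul K x)
    V0 := fun t ht x _ _ => by simp [ht]
    V1 := fun c t l h1 h2 x hx _ => ⟨0, zero_mem _, ?_⟩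
    V2 := fun c t l h1 h2 h3 x hx _ => ⟨0, zero_mem _, ?_⟩
    V3 := fun t l h1 h2 x hx _ => ⟨0, zero_mem _, ?_⟩
    κ := Unit
    card_κ := by simp
    u := fun _ => 1
    u_mem := fun _ => by simp
    u_indep := fun f hf k => ?_
    U_span := fun t x _ => ⟨fun _ => x, fun _ => trivial, ?_⟩
    count := fun c v h1 h2 => ?_ }
  · by_cases h : 0 ≤ t
    · rw [if_pos (by omega)]
      trivial
    · rw [if_neg h, Submodule.mem_bot] at hx
      rw [hx, map_zero]
      exact zero_mem _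
  · by_cases h : l = 0 <;> simp [h]
  · by_cases h1 : l = 0 ∧ c' ≤ 0
    · rw [if_pos (show l = 0 ∧ c ≤ 0 from ⟨h1.1, h.trans h1.2⟩)]
      exact le_top
    · rw [if_neg h1]
      exact bot_le
  · beta_reduce at hx
    rw [if_neg (by rintro ⟨rfl, h⟩; omega)] at hx
    simpa using hx
  · beta_reduce at hx
    rw [if_neg (by simp at h3; omega), Submodule.mem_bot] at hx
    simp [hx]
  · beta_reduce at hx
    rw [if_neg (by omega)] at hx
    simpa using hx
  · rw [Fintype.sum_unique] at hf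
    exact (mul_one (show K from f k)).symm.trans hf
  · rw [Fintype.sum_unique]
    exact (mul_one x).symm
  · rw [if_pos h2, kap]
    by_cases h : c ≤ 0 <;> simp [h]

/-- adding one line to the system. -/
noncomputable def CechSys.stepS (S : CechSys R a) (β : Fin ((n + 1) * a) → K)
    (hβ : Function.Injective β) : CechSys R.step a := by
  have ha : (0 : ℤ) ≤ a := Nat.cast_nonneg a
  have hδz : ∀ (i : ℤ) p, lδ K ((n + 1) * a) (zsh2 K _ i p) = zsh K _ i (lδ K _ p) :=
    fun i p => (map_sub (zsh K _ i) p.1 p.2).symm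
  have hle : ∀ c t l, box (S.Kc c t) (W0 K _ t) ⊤ l ⊔ box (S.Kc (c - a) t) (G0 β c t) (Gc β c) l ≤
      box (S.C t) (W0 K _ t) ⊤ l := fun c t l =>
    sup_le (box_mono (S.Kc_le c t) le_rfl le_rfl l)
      (box_mono (S.Kc_le _ t) (G0_le β c t) le_top l)
  have hneg : ∀ t l, l < 0 → box (S.C t) (W0 K ((n + 1) * a) t)
      (⊤ : Submodule K (LW K ((n + 1) * a))) l = ⊥ := fun t l h => by
    simp [box, S.C_neg t l h, S.C_neg t (l - 1) (by omega)]
  have hUle : ∀ t, S.U1 _ t ≤ box (S.C t) (W0 K ((n + 1) * a) t) ⊤ 0 := fun t =>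
    Submodule.prod_mono (tens_mono (S.U_le t) (by rintro _ ⟨w, hw, rfl⟩; exact hw)) bot_le
  have heq : ∀ c t l, c ≤ 0 → box (S.Kc c t) (W0 K _ t) ⊤ l ⊔
      box (S.Kc (c - a) t) (G0 β c t) (Gc β c) l = box (S.C t) (W0 K _ t) ⊤ l := fun c t l h =>
    le_antisymm (hle c t l) (le_sup_of_le_left
      (box_mono (fun l => (S.Kc_eq c t l h).ge) le_rfl le_rfl l))
  refine {
    M := (S.M ⊗[K] (LW K ((n + 1) * a) × LW K ((n + 1) * a))) × (S.M ⊗[K] LW K ((n + 1) * a))
    act := S.act1 _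
    d := coneD S.d (lδ K _)
    d_act := S.act1_comm _ _ fun i b x => coneD_sop (S.d_act b) (hδz i) x
    d_d := coneD_coneD _ _ S.d_d
    C := fun t => box (S.C t) (W0 K _ t) ⊤
    Kc := fun c t l => box (S.Kc c t) (W0 K _ t) ⊤ l ⊔ box (S.Kc (c - a) t) (G0 β c t) (Gc β c) l
    U := S.U1 _
    act_C := fun s b hb t l x hx => S.act1_mem _ hb fun i hi y hy =>
      sop_mem_box (S.act_C s y hy t) (zsh2_W0 hi t) (fun _ _ => Submodule.mem_top) hx
    act_Kc := fun s b hb c t l x hx => S.act1_mem _ hb fun i hi y hy => ?_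
    act_U := fun s b hb t x hx => S.act1_mem _ hb fun i hi y hy => ⟨map_mem_tens _ _
      (S.act_U s y hy t) ?_ hx.1, ?_⟩
    d_C := fun t l x hx => coneD_mem_box (S.d_C t) (fun _ _ => Submodule.mem_top) hx
    d_Kc := fun c t l x hx => ?_
    Kc_le := hle
    Kc_anti := fun c c' t l h => sup_le_sup
      (box_mono (fun l => S.Kc_anti _ _ t l h) le_rfl le_rfl l)
      (box_mono (fun l => S.Kc_anti _ _ t l (by omega)) (Submodule.prod_mono
        (inf_le_inf_left _ (Gc_anti β h)) (inf_le_inf_left _ (Gc_anti β h))) (Gc_anti β h) l)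
    Kc_eq := heq
    C_neg := hneg
    U_le := hUle
    d_U := fun t x hx => ?_
    U_neg := fun t h => by simp [CechSys.U1, S.U_neg t h]
    θ := fun r => sop (S.θ r.1) (lθ0 K _ r.2) (lθ1 K _ r.2)
    θ_act := fun r => S.act1_comm _ _ fun i b x => ?_
    θ_C := fun r t l x hx => sop_mem_box (S.θ_C r.1 t) (lθ0_W0 r.2 t) (fun _ _ => Submodule.mem_top) hx
    θ_Kc := fun r c t l x hx => ?_
    θ_idem := fun (r : R.ι × Fin 3) x => ?_
    θ_sum := fun x => ?_
    V0 := fun t ht x hx hd => ?_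
    V1 := fun c t l h1 h2 => ?_
    V2 := fun c t l h1 h2 h3 => ?_
    V3 := fun t l h1 h2 => ex_step3 (S.d_C t) l (S.V3 t l h1 h2) (lδ_onto h1)
    κ := S.κ × Fin ((n + 1) * a)
    card_κ := by rw [Fintype.card_prod, S.card_κ, Fintype.card_fin, Nat.factorial_succ]; ring
    u := S.u1 _
    u_mem := fun k => ⟨tmul_mem_tens (S.u_mem k.1) ⟨_, ⟨mem_Wp.2 fun e r hr => ?_,
      mem_Wm.2 fun e r hr => ?_⟩, rfl⟩, rfl⟩
    u_indep := S.u1_indep _
    U_span := S.U1_span _
    count := fun c v h1 h2 => ?_ }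
  · obtain ⟨α, hα, γ, hγ, rfl⟩ := Submodule.mem_sup.1 hx
    rw [map_add]
    exact add_mem (Submodule.mem_sup_left (sop_mem_box (S.act_Kc s y hy c t) (zsh2_W0 hi t)
      (fun _ _ => Submodule.mem_top) hα)) (Submodule.mem_sup_right (sop_mem_box (S.act_Kc s y hy _ t)
      (zsh2_G0 β c hi t) (fun _ => zsh_mem_Gc β _) hγ))
  · rintro _ ⟨w, hw, rfl⟩
    exact ⟨zsh K _ i w, zsh2_W0 hi t (w, w) hw, rfl⟩
  · rw [sop_apply, (Submodule.mem_bot K).1 hx.2, map_zero]
    exact zero_mem _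
  · obtain ⟨α, hα, γ, hγ, rfl⟩ := Submodule.mem_sup.1 hx
    rw [map_add]
    exact add_mem (Submodule.mem_sup_left (coneD_mem_box (S.d_Kc c t) (fun _ _ => Submodule.mem_top) hα))
      (Submodule.mem_sup_right (coneD_mem_box (S.d_Kc _ t) (lδ_G0 β c t) hγ))
  · have a1 := map_mem_tens (D' := ⊥) (E' := ⊤) S.d LinearMap.id (S.d_U t) (fun _ _ => Submodule.mem_top) hx.1
    have a2 := map_mem_tens (D' := ⊤) (E' := ⊥) LinearMap.id (lδ K _) (fun _ _ => Submodule.mem_top)
      (by rintro _ ⟨w, -, rfl⟩; exact sub_self w) hx.1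
    simp only [tens_bot_left, tens_bot_right, Submodule.mem_bot] at a1 a2
    rw [coneD_apply, a1, a2, (Submodule.mem_bot K).1 hx.2, map_zero, sub_zero]
    rfl
  · have e : S.θ r.1 * S.act b = S.act b * S.θ r.1 := LinearMap.ext (S.θ_act r.1 b)
    rw [sop_sop, sop_sop, e, lθ0_comm, lθ1_comm]
  · obtain ⟨α, hα, γ, hγ, rfl⟩ := Submodule.mem_sup.1 hx
    rw [map_add]
    exact add_mem (Submodule.mem_sup_left (sop_mem_box (S.θ_Kc r.1 c t) (lθ0_W0 r.2 t)
      (fun _ _ => Submodule.mem_top) hα)) (Submodule.mem_sup_right (sop_mem_box (S.θ_Kc r.1 _ t)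
      (lθ0_G0 β c r.2 t) (lθ1_mem r.2 _) hγ))
  · have e : S.act (R.μ r.1) * S.θ r.1 * (S.act (R.μ r.1) * S.θ r.1) =
        S.act (R.μ r.1) * S.θ r.1 := LinearMap.ext (S.θ_idem r.1)
    change S.act1 _ (R.stepμ r) (sop _ _ _ (S.act1 _ (R.stepμ r) _)) = S.act1 _ (R.stepμ r) _
    rw [S.act1_μ, sop_sop, sop_sop _ _ _ _ _ _ x, sop_sop, e, lθ0_idem, lθ1_idem]
  · change ∑ r : R.ι × Fin 3, S.act1 _ (R.stepμ r) _ = x
    simp only [S.act1_μ, sop_sop]
    exact sum_sop (fun r => S.act (R.μ r) * S.θ r) _ _ S.θ_sum lθ0_sum lθ1_sum x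
  · have a1 : x.2 = 0 := by
      have := hx.2
      rwa [S.C_neg t _ (by omega), tens_bot_left] at this
    obtain ⟨a2, a3⟩ := Prod.ext_iff.1 hd
    simp only [coneD_apply, a1, map_zero, sub_zero, Prod.fst_zero, Prod.snd_zero] at a2 a3
    have a0 := mem_tens_inf_ker_right _ (mem_tens_inf_ker_left _ hx.1 a2) a3
    refine ⟨tens_mono ?_ ?_ a0, a1⟩
    · exact fun y hy => S.V0 t ht y hy.1 hy.2
    intro p hp
    have a4 : p.1 = p.2 := sub_eq_zero.1 hp.2
    exact ⟨p.1, ⟨hp.1.1, a4 ▸ hp.1.2⟩, Prod.ext rfl a4⟩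
  · by_cases hl : l < 0
    · intro x hx _
      have := hle c t l hx
      rw [hneg t l hl, Submodule.mem_bot] at this
      exact ⟨0, zero_mem _, by simp [this]⟩
    have a1 := mul_nonneg (not_lt.1 hl) ha
    refine ex_step1 S.d_d (fun l => S.Kc_anti _ _ t l (by omega)) (S.d_Kc c t) (S.d_Kc _ t)
      (G0_le β c t) (lδ_G0 β c t) l (S.V1 c t l h1 h2) (lδ_onto h1) (fun p hp h => ?_)
      (S.V1 _ t _ h1 (by linarith))
    have a4 : p.1 = p.2 := sub_eq_zero.1 h
    have a5 : p.1 = 0 := (Wp_inf_Wm_inf_Gc hβ (by omega : t ≤ c - 1)).le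
      ⟨⟨hp.1.1, a4 ▸ hp.2.1⟩, hp.1.2⟩
    exact Prod.ext a5 (a4 ▸ a5)
  · push_cast at h3
    refine ex_step2 S.d_d (fun l => S.Kc_anti _ _ t l (by omega)) (S.Kc_le _ t) (S.d_Kc c t)
      (S.d_Kc _ t) (S.d_C t) (G0_le β c t) (lδ_G0 β c t) l ?_
      (S.V2 c t _ h1 (by linarith) (by omega)) (fun p hp h => ?_)
      (S.V2 _ t _ h1 (by linarith) (by omega))
    · by_cases hl : l + 1 ≤ n
      · exact Or.inr (S.V2 c t l h1 h2 hl)
      · obtain rfl : l = n := by omega
        refine Or.inl fun p hp h => ?_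
        obtain ⟨b1, b2⟩ := mem_Gc_of_sub_mem hβ h1 (by push_cast; exact h2) hp.1 hp.2 h
        exact ⟨⟨hp.1, b1⟩, hp.2, b2⟩
    · have a4 : p.1 = p.2 := sub_eq_zero.1 h
      have a5 : p.1 = 0 := (Wp_inf_Wm_eq_bot h1).le ⟨hp.1.1, a4 ▸ hp.2.1⟩
      exact Prod.ext a5 (a4 ▸ a5)
  · exact Finsupp.single_eq_of_ne (by simp; omega)
  · exact Finsupp.single_eq_of_ne (by simp; omega)
  · have fU := S.finite_U (c + v - 1)
    have fW := finite_Wp_inf_Wm (K := K) (m := (n + 1) * a) (c + v - 1)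
    have rW := finrank_Wp_inf_Wm (K := K) (m := (n + 1) * a) (t := c + v - 1) (by omega)
    have hdiag : ∀ E : Submodule K (LW K ((n + 1) * a)),
        Module.finrank K (E.map (ldiag K _)) = Module.finrank K E :=
      fun E => (Submodule.equivMapOfInjective _ ldiag_injective E).finrank_eq.symm
    by_cases hc : c ≤ 0
    · obtain ⟨t, ht⟩ := Int.eq_ofNat_of_zero_le h2
      rw [heq _ _ _ hc, inf_eq_left.2 (hUle _), CechSys.U1, finrank_prod_bot, finrank_tens, hdiag,
        kap_of_nonpos _ _ hc, Nat.cast_mul, rW, ht, S.finrank_U, Nat.factorial_succ,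
        show c + v = t + 1 by omega]
      push_cast
      exact le_of_eq (by ring)
    by_cases hc' : ((n + 1 : ℕ) : ℤ) * a < c
    · rw [kap_of_lt _ _ hc']
      exact Nat.cast_nonneg _
    have c1 := S.count c v h1 h2
    have c2 := S.count (c - a) (v + a) (by omega) (by omega)
    rw [show c - a + (v + a) - 1 = c + v - 1 by ring] at c2
    have c3 := le_finrank_Wp_inf_Wm_inf_Gc hβ (c := c) (t := c + v - 1) (by omega)
      (by push_cast at hc' ⊢; omega) (by omega)
    obtain ⟨t, ht⟩ : ∃ t, t = c + v - 1 := ⟨_, rfl⟩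
    rw [← ht] at fU fW rW c1 c2 c3 ⊢
    have f1 : Module.Finite K ↥(S.U t ⊓ S.Kc (c - a) t 0) :=
      Submodule.finiteDimensional_of_le inf_le_left
    have l1 : S.U t ⊓ S.Kc c t 0 ≤ S.U t ⊓ S.Kc (c - a) t 0 :=
      inf_le_inf_left _ (S.Kc_anti _ _ _ _ (by omega))
    have c4 := finrank_tens_sup l1 (Submodule.map_mono (f := ldiag K _)
      (inf_le_left : Wp K _ ⊓ Wm K _ t ⊓ Gc β c ≤ _))
    have f2 : Module.Finite K (S.U1 ((n + 1) * a) t) := by
      have := finite_tens (S.U t) ((Wp K ((n + 1) * a) ⊓ Wm K _ t).map (ldiag K _))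
      exact finite_prod_bot _
    have f3 : Module.Finite K ↥(S.U1 ((n + 1) * a) t ⊓ (box (S.Kc c t) (W0 K _ t) ⊤ 0 ⊔
        box (S.Kc (c - a) t) (G0 β c t) (Gc β c) 0)) :=
      Submodule.finiteDimensional_of_le inf_le_left
    have c5 := Submodule.finrank_mono (t := S.U1 ((n + 1) * a) t ⊓
      (box (S.Kc c t) (W0 K _ t) ⊤ 0 ⊔ box (S.Kc (c - a) t) (G0 β c t) (Gc β c) 0))
      (s := (tens (S.U t ⊓ S.Kc c t 0) ((Wp K _ ⊓ Wm K _ t).map (ldiag K _)) ⊔
        tens (S.U t ⊓ S.Kc (c - a) t 0) ((Wp K _ ⊓ Wm K _ t ⊓ Gc β c).map (ldiag K _))).prod ⊥)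
      (le_inf (Submodule.prod_mono (sup_le (tens_mono inf_le_left le_rfl)
        (tens_mono inf_le_left (Submodule.map_mono inf_le_left))) le_rfl) (by
        rw [box, box, Submodule.prod_sup_prod]
        refine Submodule.prod_mono (sup_le_sup (tens_mono inf_le_right ?_)
          (tens_mono inf_le_right ?_)) bot_le
        · rintro _ ⟨w, hw, rfl⟩
          exact hw
        · rintro _ ⟨w, hw, rfl⟩
          exact ⟨⟨hw.1.1, hw.2⟩, hw.1.2, hw.2⟩))
    rw [finrank_prod_bot] at c5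
    rw [hdiag, hdiag] at c4
    have c6 := Submodule.finrank_mono l1
    rw [kap]
    zify at c4 c5 c6
    rw [rW] at c4
    push_cast at hc' c3 c4 ⊢
    rw [show t + 1 - c = v by omega] at c3
    rw [show t + 1 = c + v by omega] at c4
    have d1 := mul_le_mul_of_nonneg_left c3 (sub_nonneg.2 c6)
    have d2 := mul_le_mul_of_nonneg_left c1 
      (mul_nonneg (show 0 ≤ c by omega) (show (0 : ℤ) ≤ (n + 1) * a + v by positivity))
    have d3 := mul_le_mul_of_nonneg_left c2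
      (mul_nonneg (show (0 : ℤ) ≤ (n + 1) * a - c by omega) h1)
    linarith

end Vale.Agent.P202
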